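import Vale.Agent.P297A41.Rows
import Vale.Agent.P009S38.Sec
import Vale.Agent.P009S24.Emb

/-!
# Row LIFT: maps which are locally given by sections are morphisms
-/

open CategoryTheory AlgebraicGeometry MonoidalCategory Limits

namespace Vale.Agent.P297A

open Vale.Agent.P009S (VA ev cst mor)
open Vale.Agent.P009.AV (PP)

theorem l90_str (X : Sch) {U : X.left.Opens} (hU : IsAffineOpen U) :
    hU.fromSpec ≫ X.hom = Spec.map (CommRingCat.ofHom (cst X U)) := by
  rw [← IsAffineOpen.SpecMap_appLE_fromSpec X.hom (isAffineOpen_top _) hU le_top,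
    IsAffineOpen.fromSpec_top, Scheme.isoSpec_Spec_inv, ← Spec.map_comp]
  rfl

theorem l90_ev {X : Sch} {U : X.left.Opens} (hU : IsAffineOpen U) (x : Pt X)
    (v : Γ(X.left, U) ⟶ CommRingCat.of ℂ) (hx : mor x = Spec.map v ≫ hU.fromSpec) :
    ∃ h : P009S.pt x ∈ U, ev x U h = v.hom := by
  have h2 : (Spec.map v ≫ hU.fromSpec) (IsLocalRing.closedPoint ℂ) ∈ U := by
    have : (Spec.map v ≫ hU.fromSpec) (IsLocalRing.closedPoint ℂ) ∈ Set.range hU.fromSpec :=
      ⟨_, rfl⟩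
    rwa [hU.range_fromSpec] at this
  have h3 : ∀ (g : Spec (CommRingCat.of ℂ) ⟶ X.left) (_ : g = Spec.map v ≫ hU.fromSpec),
      ∃ h : g (IsLocalRing.closedPoint ℂ) ∈ U,
        X.left.presheaf.germ U _ h ≫ Scheme.stalkClosedPointTo g = v := by
    rintro _ rfl
    exact ⟨h2, P009S.sec_germ U hU v h2⟩
  obtain ⟨h, h4⟩ := h3 _ hx
  exact ⟨h, congrArg CommRingCat.Hom.hom h4⟩

/-- the ring map of a chart -/
theorem l90_ring {X Y : Sch} [LocallyOfFiniteType X.hom] [IsReduced X.left] {β τ : Type}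
    {E : VA Y β τ} {e : Pt Y → PP ℂ τ} (he : E.IsEmb e) {φ : Pt X → Pt Y}
    (hφ : Loc X fun P => e (φ P)) (P : Pt X) :
    ∃ (W : X.left.Opens) (_ : IsAffineOpen W) (_ : P009S.pt P ∈ W) (b : β)
      (ψ : Γ(Y.left, E.U b) →+* Γ(X.left, W)), ψ.comp (cst Y (E.U b)) = cst X W ∧
      ∀ (P' : Pt X) (h : P009S.pt P' ∈ W), ∃ h' : P009S.pt (φ P') ∈ E.U b,
        ev (φ P') (E.U b) h' = (ev P' W h).comp ψ := by
  obtain ⟨W₀, hW₀, u, hu⟩ := hφ P
  obtain ⟨b, hb⟩ := E.cov (P009S.pt (φ P))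
  have h1 : P009S.pt P ∈ X.left.basicOpen (u (E.r b)) := by
    obtain ⟨c, -, hc⟩ := hu P hW₀
    have h2 := (P009S.emb_mem he (φ P) b).1 hb
    rw [hc] at h2
    exact (P009S.ev_ne_zero P W₀ hW₀ _).1 (right_ne_zero_of_mul h2)
  obtain ⟨W, hW, hPW, hle⟩ := exists_isAffineOpen_mem_and_subset h1
  have hle1 : W ≤ X.left.basicOpen (u (E.r b)) := hle
  have hle0 : W ≤ W₀ := hle1.trans (X.left.basicOpen_le _)
  let u' : τ → Γ(X.left, W) := fun j => X.left.presheaf.map (homOfLE hle0).op (u j)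
  have hun : IsUnit (u' (E.r b)) := by
    refine X.left.toRingedSpace.isUnit_of_isUnit_germ W _ fun x hx => ?_
    have h3 := (X.left.mem_basicOpen (u (E.r b)) x (hle0 hx)).1 (hle1 hx)
    exact (X.left.presheaf.germ_res_apply (homOfLE hle0) x hx (u (E.r b))).symm ▸ h3
  obtain ⟨w, hw⟩ := hun.exists_right_inv
  have key : ∀ (P' : Pt X) (h : P009S.pt P' ∈ W), ∃ h' : P009S.pt (φ P') ∈ E.U b,
      ∀ j, ev (φ P') (E.U b) h' (E.s b j) = ev P' W h (u' j * w) := by
    intro P' h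
    obtain ⟨c, hc0, hc⟩ := hu P' (hle0 h)
    have h4 : ∀ j, (e (φ P')).rep j = c * ev P' W h (u' j) := fun j =>
      (hc j).trans (congrArg (c * ·) (P009S.ev_res P' hle0 h (u j)).symm)
    have h5 : ev P' W h (u' (E.r b)) * ev P' W h w = 1 := by rw [← map_mul, hw, map_one]
    have h' : P009S.pt (φ P') ∈ E.U b := (P009S.emb_mem he (φ P') b).2 (by
      rw [h4]
      exact mul_ne_zero hc0 (left_ne_zero_of_mul_eq_one h5))
    obtain ⟨c', hc'0, hc'⟩ := he (φ P') b h'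
    refine ⟨h', fun j => ?_⟩
    have h6 := (hc' (E.r b)).symm.trans (h4 _)
    rw [E.one, map_one, mul_one] at h6
    have h7 := (hc' j).symm.trans (h4 j)
    apply mul_left_cancel₀ hc'0
    rw [h7, map_mul, h6]
    linear_combination (-(c * ev P' W h (u' j))) * h5
  let Θ : MvPolynomial τ ℂ →+* Γ(Y.left, E.U b) :=
    MvPolynomial.eval₂Hom (cst Y (E.U b)) (E.s b)
  let Ψ : MvPolynomial τ ℂ →+* Γ(X.left, W) := MvPolynomial.eval₂Hom (cst X W) fun j => u' j * w
  have hΘ : Function.Surjective Θ := fun t => (E.gen b t).imp fun _ h => h.symm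
  have h8 : ∀ (P' : Pt X) (h : P009S.pt P' ∈ W), ∃ h' : P009S.pt (φ P') ∈ E.U b,
      ∀ p, ev (φ P') (E.U b) h' (Θ p) = ev P' W h (Ψ p) := by
    intro P' h
    obtain ⟨h', h9⟩ := key P' h
    refine ⟨h', fun p => ?_⟩
    exact (P009S.emb_ev_eval _ _ h' _ p).trans ((congrArg (MvPolynomial.eval · p)
      (funext h9)).trans (P009S.emb_ev_eval _ _ h _ p).symm)
  have hker : RingHom.ker Θ ≤ RingHom.ker Ψ := by
    intro p hp
    refine eq_zero_of_basicOpen_eq_bot (Ψ p) (le_bot_iff.1 (P009S.sec_le _ _ fun x hx => ?_))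
    have h := X.left.basicOpen_le _ hx
    obtain ⟨h', h9⟩ := h8 x h
    refine absurd ?_ ((P009S.ev_ne_zero x W h _).2 hx)
    rw [← h9, show Θ p = 0 from hp, map_zero]
  have hψ : ∀ p, Θ.liftOfSurjective hΘ ⟨Ψ, hker⟩ (Θ p) = Ψ p := fun p =>
    Θ.liftOfSurjective_comp_apply hΘ ⟨Ψ, hker⟩ p
  refine ⟨W, hW, hPW, b, Θ.liftOfSurjective hΘ ⟨Ψ, hker⟩, RingHom.ext fun c => ?_,
    fun P' h => ?_⟩
  · have h9 := hψ (MvPolynomial.C c)
    rwa [show Θ (MvPolynomial.C c) = cst Y (E.U b) c from MvPolynomial.eval₂Hom_C _ _ c,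
      show Ψ (MvPolynomial.C c) = cst X W c from MvPolynomial.eval₂Hom_C _ _ c] at h9
  · obtain ⟨h', h9⟩ := h8 P' h
    refine ⟨h', RingHom.ext fun t => ?_⟩
    obtain ⟨p, rfl⟩ := hΘ t
    rw [h9, RingHom.comp_apply, hψ]

/-- the local morphism -/
theorem l90_loc {X Y : Sch} [LocallyOfFiniteType X.hom] [IsReduced X.left]
    [LocallyOfFiniteType Y.hom] {β τ : Type}
    {E : VA Y β τ} {e : Pt Y → PP ℂ τ} (he : E.IsEmb e) {φ : Pt X → Pt Y}
    (hφ : Loc X fun P => e (φ P)) (P : Pt X) :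
    ∃ (T : Sch) (j : T ⟶ X) (g : T ⟶ Y), IsOpenImmersion j.left ∧
      P009S.pt P ∈ Set.range j.left ∧ ∀ Q : Pt T, Q ≫ g = φ (Q ≫ j) := by
  obtain ⟨W, hW, hP, b, ψ, h1, h2⟩ := l90_ring he hφ P
  let T : Sch := Over.mk (hW.fromSpec ≫ X.hom)
  let j : T ⟶ X := Over.homMk hW.fromSpec rfl
  let g : T ⟶ Y := Over.homMk (Spec.map (CommRingCat.ofHom ψ) ≫ (E.aff b).fromSpec) (by
    show (Spec.map (CommRingCat.ofHom ψ) ≫ (E.aff b).fromSpec) ≫ Y.hom = hW.fromSpec ≫ X.hom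
    rw [Category.assoc, l90_str, l90_str, ← Spec.map_comp, ← h1]
    rfl)
  refine ⟨T, j, g, inferInstanceAs (IsOpenImmersion hW.fromSpec), ?_, fun Q => ?_⟩
  · show P009S.pt P ∈ Set.range hW.fromSpec
    rw [hW.range_fromSpec]
    exact hP
  · obtain ⟨v, hv⟩ := Spec.map_surjective (R := Γ(X.left, W)) (S := CommRingCat.of ℂ) (mor Q)
    obtain ⟨h3, h4⟩ := l90_ev hW (Q ≫ j) v (by rw [hv]; rfl)
    obtain ⟨h5, h6⟩ := l90_ev (E.aff b) (Q ≫ g) (CommRingCat.ofHom ψ ≫ v) (by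
      rw [Spec.map_comp, hv, Category.assoc]; rfl)
    obtain ⟨h7, h8⟩ := h2 (Q ≫ j) h3
    refine P009S.sec_sep _ (E.aff b) _ _ h5 h7 ?_
    rw [h6, h8, h4]
    rfl

theorem lift90 : LIFT := by
  intro X Y _ _ _ _ β τ E e he φ hφ
  choose T j g hj hP hg using l90_loc he hφ
  have hcov : ∀ x : X.left, ∃ P y, (j P).left y = x := by
    intro x
    have h1 : (⊤ : X.left.Opens) ≤ ⨆ P, (j P).left.opensRange :=
      P009S.sec_le _ _ fun P _ => TopologicalSpace.Opens.mem_iSup.2 ⟨P, hP P⟩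
    exact TopologicalSpace.Opens.mem_iSup.1 (h1 (Set.mem_univ x))
  let 𝒰 : X.left.OpenCover :=
    Scheme.Cover.mkOfCovers (Pt X) (fun P => (T P).left) (fun P => (j P).left) hcov hj
  have hc : ∀ P P', pullback.fst (j P).left (j P').left ≫ (g P).left =
      pullback.snd (j P).left (j P').left ≫ (g P').left := by
    intro P P'
    let S : Sch := Over.mk (pullback.fst (j P).left (j P').left ≫ (j P).left ≫ X.hom)
    let a : S ⟶ T P := Over.homMk (pullback.fst (j P).left (j P').left) (by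
      show _ = pullback.fst (j P).left (j P').left ≫ (j P).left ≫ X.hom
      rw [Over.w (j P)])
    let a' : S ⟶ T P' := Over.homMk (pullback.snd (j P).left (j P').left) (by
      show _ = pullback.fst (j P).left (j P').left ≫ (j P).left ≫ X.hom
      rw [pullback.condition_assoc, Over.w (j P')])
    have h1 : a ≫ j P = a' ≫ j P' := Over.OverMorphism.ext pullback.condition
    have h2 : LocallyOfFiniteType S.hom := inferInstanceAs
      (LocallyOfFiniteType (pullback.fst (j P).left (j P').left ≫ (j P).left ≫ X.hom))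
    have h3 : IsReduced S.left :=
      isReduced_of_isOpenImmersion (pullback.fst (j P).left (j P').left ≫ (j P).left)
    have h4 : a ≫ g P = a' ≫ g P' := ext_pt fun Q => by
      rw [← Category.assoc, hg, ← Category.assoc, hg, Category.assoc, h1, Category.assoc]
    exact congrArg (·.left) h4
  have hf : ∀ P, (j P).left ≫ 𝒰.glueMorphisms (fun P => (g P).left) hc = (g P).left :=
    fun P => 𝒰.ι_glueMorphisms (fun P => (g P).left) hc P
  let f : X ⟶ Y := Over.homMk (𝒰.glueMorphisms (fun P => (g P).left) hc)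
    (𝒰.hom_ext _ _ fun P : Pt X => (Category.assoc _ _ _).symm.trans
      ((congrArg (· ≫ Y.hom) (hf P)).trans ((Over.w (g P)).trans (Over.w (j P)).symm)))
  refine ⟨f, fun P => ?_⟩
  have h1 : Set.range (mor P) ⊆ Set.range (j P).left := by
    rintro _ ⟨z, rfl⟩
    rw [Subsingleton.elim z (IsLocalRing.closedPoint ℂ)]
    exact hP P
  let Q : Pt (T P) := Over.homMk (IsOpenImmersion.lift (j P).left (mor P) h1) (by
    rw [← Over.w (j P), IsOpenImmersion.lift_fac_assoc]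
    exact P009S.mor_hom P)
  have h2 : Q ≫ j P = P := Over.OverMorphism.ext (IsOpenImmersion.lift_fac _ _ h1)
  have h3 : j P ≫ f = g P := Over.OverMorphism.ext (hf P)
  rw [← h2, Category.assoc, h3, hg]

end Vale.Agent.P297A
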